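import Vale.Agent.P182G.Rows

/-!
# Dominant weights are sums of the fundamental ones
-/

set_option linter.all false

namespace Vale.Agent.P182G78

open Vale.Agent.P182G Vale.Agent.P182

variable {n : ℕ}

theorem hw_nat (hW : EXW) (hT : EXT) (mu : Fin n → ℕ) (h : ∀ i j, i ≤ j → mu j ≤ mu i) :
    HasHW fun i => (mu i : ℚ) := by
  have key : ∀ M : ℕ, HasHW fun i => ((min (mu i) M : ℕ) : ℚ) := by
    intro M
    induction M with
    | zero => simpa using hW n 0
    | succ M ih =>
      have hex : ∃ k : ℕ, ∀ i : Fin n, k ≤ i.val → ¬ M < mu i :=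
        ⟨n, fun i hi => absurd i.2 (not_lt.2 hi)⟩
      classical
      have e : (fun i => ((min (mu i) (M + 1) : ℕ) : ℚ)) = (fun i => ((min (mu i) M : ℕ) : ℚ)) +
          fun i : Fin n => if i.val < Nat.find hex then 1 else 0 := by
        funext i
        rw [Pi.add_apply]
        split_ifs with hi
        · have := Nat.find_min hex hi
          push Not at this
          obtain ⟨j, h1, h2⟩ := this
          have h3 := h i j h1
          rw [min_eq_right (by omega), min_eq_right (by omega)]
          push_cast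
          rfl
        · have := Nat.find_spec hex i (not_lt.1 hi)
          rw [min_eq_left (by omega), min_eq_left (by omega), add_zero]
      rw [e]
      exact hT n _ _ ih (hW n _)
  have := key (Finset.univ.sup mu)
  have e : ∀ i, min (mu i) (Finset.univ.sup mu) = mu i := fun i =>
    min_eq_left (Finset.le_sup (Finset.mem_univ i))
  simpa only [e] using this

theorem hw_add_smul (hT : EXT) {mu s : Fin n → ℚ} (h1 : HasHW mu) (h2 : HasHW s) (N : ℕ) :
    HasHW fun i => mu i + N * s i := by
  induction N with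
  | zero => simpa using h1
  | succ N ih =>
    have e : (fun i => mu i + ((N + 1 : ℕ) : ℚ) * s i) = (fun i => mu i + N * s i) + s := by
      funext i
      rw [Pi.add_apply]
      push_cast
      ring
    rw [e]
    exact hT n _ _ ih h2

theorem exd_row : EXD := by
  intro hS hW hT n lam hl
  rcases n with _ | n
  · have e : lam = fun i : Fin 0 => if i.val < 0 then 1 else 0 := funext fun i => i.elim0
    rw [e]
    exact hW 0 0
  set c := lam (Fin.last n) with hc
  have hlast : ∀ i : Fin (n + 1), i ≠ Fin.last n → |c| ≤ lam i := fun i hi =>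
    hl.2 i _ (lt_of_le_of_ne (Fin.le_last i) hi)
  have hint : ∃ z : ℤ, 2 * c = z ∧ ∀ i, ∃ a b : ℤ, lam i - c = a ∧ lam i + c = b := by
    rcases hl.1 with h | h
    · obtain ⟨k, hk⟩ := h (Fin.last n)
      refine ⟨2 * k, by rw [hc, hk]; push_cast; ring, fun i => ?_⟩
      obtain ⟨m, hm⟩ := h i
      exact ⟨m - k, m + k, by rw [hc, hk, hm]; push_cast; ring, by rw [hc, hk, hm]; push_cast; ring⟩
    · obtain ⟨k, hk⟩ := h (Fin.last n)
      refine ⟨2 * k + 1, by rw [hc, hk]; push_cast; ring, fun i => ?_⟩
      obtain ⟨m, hm⟩ := h i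
      exact ⟨m - k, m + k + 1, by rw [hc, hk, hm]; push_cast; ring,
        by rw [hc, hk, hm]; push_cast; ring⟩
  obtain ⟨z, hz, hab⟩ := hint
  have hN : ((z.natAbs : ℕ) : ℚ) = 2 * |c| := by
    rw [Nat.cast_natAbs, Int.cast_abs, ← hz, abs_mul, abs_two]
  have hmu : ∀ i : Fin (n + 1), ∃ m : ℕ, (m : ℚ) = if i = Fin.last n then 0 else lam i - |c| := by
    intro i
    split_ifs with hi
    · exact ⟨0, rfl⟩
    · obtain ⟨a, b, ha, hb⟩ := hab i
      have h0 : 0 ≤ lam i - |c| := sub_nonneg.2 (hlast i hi)
      have : ∃ w : ℤ, lam i - |c| = w := by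
        rcases abs_choice c with e | e
        · exact ⟨a, by rw [e, ha]⟩
        · exact ⟨b, by rw [e, sub_neg_eq_add, hb]⟩
      obtain ⟨w, hw⟩ := this
      rw [hw] at h0 ⊢
      exact ⟨w.natAbs, by rw [Nat.cast_natAbs, Int.cast_abs, abs_of_nonneg h0]⟩
  choose mu hmu using hmu
  have hanti : ∀ i j, i ≤ j → mu j ≤ mu i := by
    intro i j hij
    rcases hij.eq_or_lt with rfl | hij
    · exact le_rfl
    have hi : i ≠ Fin.last n := ne_of_lt (lt_of_lt_of_le hij (Fin.le_last j))
    have : (mu j : ℚ) ≤ mu i := by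
      rw [hmu i, hmu j, if_neg hi]
      split_ifs with hj
      · exact sub_nonneg.2 (hlast i hi)
      · exact sub_le_sub_right ((le_abs_self _).trans (hl.2 i j hij)) _
    exact_mod_cast this
  have h1 := hw_nat hW hT mu hanti
  rcases le_total 0 c with h0 | h0
  · have := hw_add_smul hT h1 (hS (n + 1)).1 z.natAbs
    have e : lam = fun i => (mu i : ℚ) + z.natAbs * (1 / 2) := by
      funext i
      rw [hmu i, hN]
      split_ifs with hi
      · rw [hi, ← hc, abs_of_nonneg h0]; ring
      · ring
    rw [e]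
    exact this
  · have := hw_add_smul hT h1 (hS (n + 1)).2 z.natAbs
    have e : lam = fun i : Fin (n + 1) =>
        (mu i : ℚ) + z.natAbs * (if i.val + 1 = n + 1 then -1 / 2 else 1 / 2) := by
      funext i
      rw [hmu i, hN]
      by_cases hi : i = Fin.last n
      · rw [if_pos hi, if_pos (by rw [hi, Fin.val_last]), hi, ← hc, abs_of_nonpos h0]; ring
      · rw [if_neg hi, if_neg fun e => hi (Fin.ext (by rw [Fin.val_last]; omega))]; ring
    rw [e]
    exact this

end Vale.Agent.P182G78
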