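import Mathlib.LinearAlgebra.CliffordAlgebra.SpinGroup
import Mathlib.Analysis.Complex.Polynomial.Basic
import Mathlib.LinearAlgebra.Dimension.Finrank
import Mathlib.LinearAlgebra.FiniteDimensional.Basic

/-!
# The spin group is generated by the elements `1 + a m`, `m` null, `a` orthogonal to `m`
-/

set_option linter.all false

open CliffordAlgebra QuadraticMap

namespace Vale.Agent.P182G78

variable {V : Type*} [AddCommGroup V] [Module ℂ V] {Q : QuadraticForm ℂ V}

theorem csqrt (c : ℂ) : ∃ s : ℂ, s * s = c := by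
  obtain ⟨s, hs⟩ := IsAlgClosed.exists_eq_mul_self c
  exact ⟨s, hs.symm⟩

theorem Q_add (x y : V) : Q (x + y) = Q x + Q y + polar Q x y := by
  simp only [polar]; ring

theorem polar_self' (x : V) : polar Q x x = 2 * Q x := by
  rw [QuadraticMap.polar_self]; simp [two_smul, two_mul]

/-- an anisotropic vector orthogonal to a nondegenerate plane (or line) -/
theorem exists_perp (hQ : ∀ x, (∀ y, polar Q x y = 0) → x = 0) (hd : 3 ≤ Module.finrank ℂ V)
    (v w : V) (a b : V → ℂ) (ha : ∀ x, polar Q (x - a x • v - b x • w) v = 0)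
    (hb : ∀ x, polar Q (x - a x • v - b x • w) w = 0) :
    ∃ z, polar Q z v = 0 ∧ polar Q z w = 0 ∧ Q z = 1 := by
  have key : ∃ z, polar Q z v = 0 ∧ polar Q z w = 0 ∧ Q z ≠ 0 := by
    by_contra hn
    push Not at hn
    have h0 : ∀ x, x - a x • v - b x • w = 0 := by
      intro x
      refine hQ _ fun y => ?_
      have h1 := hn (x - a x • v - b x • w + (y - a y • v - b y • w))
        (by rw [polar_add_left, ha, ha, add_zero]) (by rw [polar_add_left, hb, hb, add_zero])
      rw [Q_add, hn _ (ha x) (hb x), hn _ (ha y) (hb y), zero_add, zero_add, polar_sub_right,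
        polar_sub_right, polar_smul_right, polar_smul_right, ha, hb] at h1
      simpa using h1
    have hs : Submodule.span ℂ (Set.range ![v, w]) = ⊤ := by
      refine eq_top_iff.2 fun x _ => ?_
      have : x = a x • v + b x • w := by
        have := h0 x
        rw [sub_sub, sub_eq_zero] at this
        exact this
      rw [this]
      exact Submodule.add_mem _ (Submodule.smul_mem _ _ (Submodule.subset_span ⟨0, rfl⟩))
        (Submodule.smul_mem _ _ (Submodule.subset_span ⟨1, rfl⟩))
    have := finrank_le_of_span_eq_top hs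
    simp at this
    omega
  obtain ⟨z, h1, h2, h3⟩ := key
  obtain ⟨s, hs⟩ := csqrt (Q z)⁻¹
  refine ⟨s • z, by rw [polar_smul_left, h1, smul_zero], by rw [polar_smul_left, h2, smul_zero], ?_⟩
  rw [QuadraticMap.map_smul, smul_eq_mul, hs, inv_mul_cancel₀ h3]

section

variable (hQ : ∀ x, (∀ y, polar Q x y = 0) → x = 0) (hd : 3 ≤ Module.finrank ℂ V)
  (H : Submonoid (CliffordAlgebra Q))
  (hH : ∀ a m, Q m = 0 → polar Q a m = 0 → Q a ≠ 0 → 1 + ι Q a * ι Q m ∈ H)

include hH in
theorem line {v w : V} (hv : Q v = 1) (hw : Q w = 1) (h : polar Q v w = 2) :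
    ι Q v * ι Q w ∈ H := by
  have h1 : polar Q v (w - v) = 0 := by rw [polar_sub_right, polar_self', h, hv]; ring
  have h2 : Q (w - v) = 0 := by
    have := Q_add (Q := Q) v (w - v)
    rw [add_sub_cancel, hv, hw, h1] at this
    linear_combination -this
  have := hH v (w - v) h2 h1 (by rw [hv]; exact one_ne_zero)
  rwa [map_sub, mul_sub, ι_sq_scalar, hv, map_one, add_sub_cancel] at this

theorem trans {u v w : V} (hv : Q v = 1) (h1 : ι Q u * ι Q v ∈ H) (h2 : ι Q v * ι Q w ∈ H) :
    ι Q u * ι Q w ∈ H := by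
  have := H.mul_mem h1 h2
  rwa [mul_assoc, ← mul_assoc (ι Q v), ι_sq_scalar, hv, map_one, one_mul] at this

include hQ hd hH in
theorem generic {v w : V} (hv : Q v = 1) (hw : Q w = 1) (h : polar Q v w ≠ -2) :
    ι Q v * ι Q w ∈ H := by
  by_cases h2 : polar Q v w = 2
  · exact line H hH hv hw h2
  set c := polar Q v w with hc
  have hp : 2 + c ≠ 0 := fun e => h (by linear_combination e)
  have hm : 2 - c ≠ 0 := fun e => h2 (by linear_combination -e)
  have hwv : polar Q w v = c := by rw [polar_comm]
  obtain ⟨z, z1, z2, z3⟩ := exists_perp hQ hd v w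
    (fun x => (2 * polar Q x v - c * polar Q x w) / ((2 + c) * (2 - c)))
    (fun x => (2 * polar Q x w - c * polar Q x v) / ((2 + c) * (2 - c)))
    (fun x => by
      simp only [polar_sub_left, polar_smul_left, polar_self', hv, hwv, smul_eq_mul]
      field_simp
      ring)
    (fun x => by
      simp only [polar_sub_left, polar_smul_left, polar_self', hw, ← hc, smul_eq_mul]
      field_simp
      ring)
  obtain ⟨t, ht⟩ := csqrt (1 - Q ((2 / (2 + c)) • (v + w)))
  have hu : Q ((2 / (2 + c)) • (v + w) + t • z) = 1 := by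
    rw [Q_add, polar_smul_left, polar_smul_right, polar_add_left, polar_comm _ v, polar_comm _ w,
      z1, z2, QuadraticMap.map_smul _ t, smul_eq_mul, smul_eq_mul, ht, z3]
    simp
  refine trans H hu (line H hH hv hu ?_) (line H hH hu hw ?_)
  · rw [polar_add_right, polar_smul_right, polar_smul_right, polar_add_right, polar_self',
      polar_comm _ v z, z1, hv, ← hc]
    simp only [smul_eq_mul]
    field_simp
    ring
  · rw [polar_add_left, polar_smul_left, polar_smul_left, polar_add_left, polar_self', z2, hw, ← hc]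
    simp only [smul_eq_mul]
    field_simp
    ring

include hQ hd hH in
theorem pair {v w : V} (hv : Q v = 1) (hw : Q w = 1) : ι Q v * ι Q w ∈ H := by
  obtain ⟨z, z1, -, z3⟩ := exists_perp hQ hd v 0 (fun x => polar Q x v / 2) (fun _ => 0)
    (fun x => by
      simp only [polar_sub_left, polar_smul_left, polar_self', hv, smul_eq_mul]
      ring)
    (fun x => by simp)
  have h1 : polar Q v z = 0 := by rw [polar_comm, z1]
  by_cases h : polar Q z w = -2
  · have z4 : Q (-z) = 1 := by rw [QuadraticMap.map_neg, z3]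
    refine trans H z4 (generic hQ hd H hH hv z4 ?_) (generic hQ hd H hH z4 hw ?_)
    · rw [polar_neg_right, h1]; norm_num
    · rw [polar_neg_left, h]; norm_num
  · exact trans H z3 (generic hQ hd H hH hv z3 (by rw [h1]; norm_num)) (generic hQ hd H hH z3 hw h)

include hQ hd hH in
theorem even_prod : ∀ (k : ℕ) (l : List V), l.length = 2 * k → (∀ v ∈ l, Q v = 1) →
    (l.map (ι Q)).prod ∈ H
  | 0, l, h, _ => by
    obtain rfl : l = [] := List.length_eq_zero_iff.1 (by simpa using h)
    exact H.one_mem
  | k + 1, [], h, _ => by simp at h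
  | k + 1, [_], h, _ => by simp at h; omega
  | k + 1, v :: w :: l, h, hl => by
    simp only [List.map_cons, List.prod_cons, ← mul_assoc]
    exact H.mul_mem (pair hQ hd H hH (hl v (by simp)) (hl w (by simp)))
      (even_prod k l (by simp at h; omega) fun x hx => hl x (by simp [hx]))

end

theorem star_prod : ∀ (l : List V), (∀ v ∈ l, Q v = 1) →
    star (l.map (ι Q)).prod * (l.map (ι Q)).prod = (-1) ^ l.length
  | [], _ => by simp
  | v :: l, hl => by
    have := star_prod l fun x hx => hl x (by simp [hx])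
    rw [List.map_cons, List.prod_cons, star_mul, star_ι, mul_assoc, ← mul_assoc (-ι Q v), neg_mul,
      ι_sq_scalar, hl v (by simp), map_one, neg_mul, one_mul, mul_neg, this, List.length_cons,
      pow_succ, mul_neg, mul_one]

theorem lip_form {g : (CliffordAlgebra Q)ˣ} (hg : g ∈ lipschitzGroup Q) :
    ∃ (c : ℂ) (l : List V), (∀ v ∈ l, Q v = 1) ∧ (g : CliffordAlgebra Q) = c • (l.map (ι Q)).prod := by
  have one : ∀ x : (CliffordAlgebra Q)ˣ, ∀ v, (x : CliffordAlgebra Q) = ι Q v →
      ∃ (s : ℂ) (u : V), s ≠ 0 ∧ Q u = 1 ∧ ι Q v = s • ι Q u := by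
    intro x v hx
    have h0 : Q v ≠ 0 := by
      intro e
      have : ((x * x : (CliffordAlgebra Q)ˣ) : CliffordAlgebra Q) = 0 := by
        rw [Units.val_mul, hx, ι_sq_scalar, e, map_zero]
      exact (x * x).ne_zero this
    obtain ⟨s, hs⟩ := csqrt (Q v)
    have hs0 : s ≠ 0 := fun e => h0 (by rw [← hs, e, mul_zero])
    refine ⟨s, s⁻¹ • v, hs0, ?_, ?_⟩
    · rw [QuadraticMap.map_smul, smul_eq_mul, ← hs]; field_simp
    · rw [map_smul, smul_smul, mul_inv_cancel₀ hs0, one_smul]
  induction hg using Subgroup.closure_induction'' with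
  | mem x hx =>
    obtain ⟨v, hv⟩ := hx
    obtain ⟨s, u, -, hu, e⟩ := one x v hv.symm
    exact ⟨s, [u], by simpa using hu, by simp [← hv, e]⟩
  | inv_mem x hx =>
    obtain ⟨v, hv⟩ := hx
    obtain ⟨s, u, hs, hu, e⟩ := one x v hv.symm
    refine ⟨s⁻¹, [u], by simpa using hu, ?_⟩
    refine Units.inv_eq_of_mul_eq_one_right ?_
    simp only [← hv, e, List.map_cons, List.map_nil, List.prod_cons, List.prod_nil, mul_one]
    rw [smul_mul_smul_comm, mul_inv_cancel₀ hs, ι_sq_scalar, hu, map_one, one_smul]
  | one => exact ⟨1, [], by simp, by simp⟩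
  | mul x y _ _ hx hy =>
    obtain ⟨c, l, h1, e1⟩ := hx
    obtain ⟨d, m, h2, e2⟩ := hy
    refine ⟨c * d, l ++ m, fun v hv => (List.mem_append.1 hv).elim (h1 v) (h2 v), ?_⟩
    rw [Units.val_mul, e1, e2, List.map_append, List.prod_append, smul_mul_smul_comm]

/-- **Generation.** -/
theorem gen (hQ : ∀ x, (∀ y, polar Q x y = 0) → x = 0) (hd : 3 ≤ Module.finrank ℂ V)
    (H : Submonoid (CliffordAlgebra Q))
    (hH : ∀ a m, Q m = 0 → polar Q a m = 0 → Q a ≠ 0 → 1 + ι Q a * ι Q m ∈ H) : spinGroup Q ≤ H := by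
  intro g hg
  have hl := pinGroup.mem_lipschitzGroup (spinGroup.mem_pin hg)
  obtain ⟨x, hx, rfl⟩ := hl
  obtain ⟨c, l, h1, e⟩ := lip_form hx
  have hinv := spinGroup.involute_eq hg
  have hst := spinGroup.star_mul_self_of_mem hg
  change involute (x : CliffordAlgebra Q) = x at hinv
  change star (x : CliffordAlgebra Q) * x = 1 at hst
  change (x : CliffordAlgebra Q) ∈ H
  rcases Nat.even_or_odd' l.length with ⟨k, hk | hk⟩
  · have hp := even_prod hQ hd H hH k l hk h1
    rw [e, CliffordAlgebra.star_smul, smul_mul_smul_comm, star_prod l h1, hk, pow_mul] at hst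
    have hc : c * c = 1 := by
      have : algebraMap ℂ (CliffordAlgebra Q) (c * c) = algebraMap ℂ _ 1 := by
        rw [Algebra.algebraMap_eq_smul_one, map_one]
        simpa using hst
      exact (algebraMap ℂ (CliffordAlgebra Q)).injective this
    rcases mul_self_eq_one_iff.1 hc with rfl | rfl
    · rwa [e, one_smul]
    · obtain ⟨z, -, -, hz⟩ := exists_perp hQ hd 0 0 (fun _ => 0) (fun _ => 0) (by simp) (by simp)
      have hm := pair hQ hd H hH hz (show Q (-z) = 1 by rw [QuadraticMap.map_neg, hz])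
      rw [map_neg, mul_neg, ι_sq_scalar, hz, map_one] at hm
      have := H.mul_mem hm hp
      rwa [e, neg_smul, one_smul, ← neg_one_mul]
  · rw [e, map_smul, involute_prod_map_ι, hk, pow_succ, pow_mul] at hinv
    have : (2 : ℂ) • (x : CliffordAlgebra Q) = 0 := by
      rw [e, two_smul]
      nth_rewrite 1 [← hinv]
      simp
    exact absurd ((smul_eq_zero.1 this).resolve_left two_ne_zero) x.ne_zero

end Vale.Agent.P182G78
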