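import Vale.Agent.P182G.Rows
import Vale.Agent.P182G78.Gen

set_option linter.all false

open CliffordAlgebra QuadraticMap

namespace Vale.Agent.P182G78

open Vale.Agent.P182G

theorem qs_nondeg (n : ℕ) (x : Fin n ⊕ Fin n → ℂ) (h : ∀ y, polar (Qs n) x y = 0) : x = 0 := by
  funext k
  have := h (bv k.swap)
  rw [polar_bv (Q := Qs n) split_apply, Sum.swap_swap] at this
  exact this

theorem gen_row : GEN := by
  intro n hn H hH
  refine eq_top_iff.2 fun g _ => ?_
  have hd : 3 ≤ Module.finrank ℂ (Fin n ⊕ Fin n → ℂ) := by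
    simp only [Module.finrank_fintype_fun_eq_card, Fintype.card_sum, Fintype.card_fin]
    omega
  obtain ⟨x, hx, e⟩ := gen (qs_nondeg n) hd (H.toSubmonoid.map (spinGroup (Qs n)).subtype)
    (fun a m h1 h2 h3 => ⟨⟨_, null_mem h1 h2 h3⟩, hH _ _ ⟨a, m, h1, h2, h3, rfl⟩ rfl, rfl⟩) g.2
  obtain rfl : x = g := Subtype.ext e
  exact hx

end Vale.Agent.P182G78
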