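import Vale.Agent.P182G78.GenRow

/-!
# The embedding of `so(2n)` in the Clifford algebra
-/

set_option linter.all false

open CliffordAlgebra QuadraticMap Matrix

namespace Vale.Agent.P182G78

open Vale.Agent.P182G Vale.Agent.P182

variable {n : ℕ}

theorem pb (v : Fin n ⊕ Fin n → ℂ) (k : Fin n ⊕ Fin n) : polar (Qs n) v (bv k) = v k.swap :=
  polar_bv (Q := Qs n) split_apply v k

theorem qb (k : Fin n ⊕ Fin n) : Qs n (bv k) = 0 := q_bv (Q := Qs n) split_apply k

theorem skew (A : so n) (k l : Fin n ⊕ Fin n) : A.1 k l = -A.1 l.swap k.swap := by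
  have h := (mem_so_iff A.1).1 A.2
  rcases k with i | i <;> rcases l with j | j
  · simp [(h i j).1]
  · simp [(h j i).2.1]
  · simp [(h j i).2.2]
  · simp [(h j i).1]

theorem expand (v : Fin n ⊕ Fin n → ℂ) : ∑ l, v l • bv l = v := by
  funext k
  simp [Finset.sum_apply, Pi.single_apply]

theorem sum_swap {M : Type*} [AddCommMonoid M] (F : Fin n ⊕ Fin n → M) :
    ∑ l : Fin n ⊕ Fin n, F l.swap = ∑ l, F l := by
  simp only [Fintype.sum_sum_type, Sum.swap_inl, Sum.swap_inr]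
  exact add_comm _ _

theorem iota_swap (v : Fin n ⊕ Fin n → ℂ) :
    ∑ l : Fin n ⊕ Fin n, v l.swap • ι (Qs n) (bv l.swap) = ι (Qs n) v := by
  rw [sum_swap fun l => v l • ι (Qs n) (bv l)]
  conv_rhs => rw [← expand v]
  simp only [map_sum, map_smul]

theorem iota_mulVec (S : Matrix (Fin n ⊕ Fin n) (Fin n ⊕ Fin n) ℂ) (v : Fin n ⊕ Fin n → ℂ) :
    ∑ l, v l • ι (Qs n) (S *ᵥ bv l) = ι (Qs n) (S *ᵥ v) := by
  conv_rhs => rw [← expand v]
  simp only [Matrix.mulVec_sum, Matrix.mulVec_smul, map_sum, map_smul]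

theorem mv (S : Matrix (Fin n ⊕ Fin n) (Fin n ⊕ Fin n) ℂ) (k l : Fin n ⊕ Fin n) :
    (S *ᵥ bv l) k = S k l := by simp

theorem polar_skew (A : so n) (l : Fin n ⊕ Fin n) (v : Fin n ⊕ Fin n → ℂ) :
    polar (Qs n) (A.1 *ᵥ bv l) v = -(A.1 *ᵥ v) l.swap := by
  rw [polar_of (Q := Qs n) split_apply]
  simp only [mv]
  simp only [Matrix.mulVec, dotProduct, Fintype.sum_sum_type, ← Finset.sum_add_distrib,
    ← Finset.sum_neg_distrib]
  refine Finset.sum_congr rfl fun i _ => ?_
  rw [skew A (Sum.inl i) l, skew A (Sum.inr i) l]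
  simp only [Sum.swap_inl, Sum.swap_inr]
  ring

theorem comm_vec (u w v : Fin n ⊕ Fin n → ℂ) :
    ι (Qs n) u * ι (Qs n) w * ι (Qs n) v - ι (Qs n) v * (ι (Qs n) u * ι (Qs n) w) =
      polar (Qs n) w v • ι (Qs n) u - polar (Qs n) u v • ι (Qs n) w := by
  rw [Algebra.smul_def, Algebra.smul_def, Algebra.commutes _ (ι (Qs n) u), ← ι_mul_ι_add_swap,
    ← ι_mul_ι_add_swap]
  noncomm_ring

/-- a bilinear pairing of matrices -/
noncomputable def psi (S T : Matrix (Fin n ⊕ Fin n) (Fin n ⊕ Fin n) ℂ) : Cl n :=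
  ∑ l, ι (Qs n) (S *ᵥ bv l) * ι (Qs n) (T *ᵥ bv l.swap)

theorem psi_skew (S T : Matrix (Fin n ⊕ Fin n) (Fin n ⊕ Fin n) ℂ) (A : so n) :
    psi S (T * A.1) = -psi (S * A.1) T := by
  unfold psi
  simp only [← Matrix.mulVec_mulVec]
  have e1 : ∀ l, ι (Qs n) (S *ᵥ (A.1 *ᵥ bv l)) = ∑ m, A.1 m l • ι (Qs n) (S *ᵥ bv m) := fun l => by
    rw [← iota_mulVec]; simp only [mv]
  have e2 : ∀ m : Fin n ⊕ Fin n, ι (Qs n) (T *ᵥ (A.1 *ᵥ bv m.swap)) =
      ∑ l : Fin n ⊕ Fin n, A.1 l.swap m.swap • ι (Qs n) (T *ᵥ bv l.swap) := fun m => by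
    rw [← iota_mulVec, sum_swap fun l => A.1 l m.swap • ι (Qs n) (T *ᵥ bv l)]; simp only [mv]
  simp only [e1, e2, Finset.sum_mul, Finset.mul_sum, ← Finset.sum_neg_distrib]
  rw [Finset.sum_comm]
  refine Finset.sum_congr rfl fun l _ => Finset.sum_congr rfl fun m _ => ?_
  rw [skew A m l, mul_smul_comm, smul_mul_assoc, neg_smul, neg_neg]

/-- the embedding -/
noncomputable def phi (n : ℕ) : so n →ₗ[ℂ] Cl n where
  toFun A := (1 / 2 : ℂ) • psi A.1 1
  map_add' A B := by
    rw [← smul_add]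
    simp [psi, Matrix.add_mulVec, add_mul, Finset.sum_add_distrib, -Matrix.mulVec_single]
  map_smul' c A := by
    rw [smul_comm]
    simp [psi, Matrix.smul_mulVec, Finset.smul_sum, -Matrix.mulVec_single]

theorem phi_apply (A : so n) : phi n A = (1 / 2 : ℂ) • psi A.1 1 := rfl

theorem phi_ad (A : so n) (v : Fin n ⊕ Fin n → ℂ) :
    phi n A * ι (Qs n) v - ι (Qs n) v * phi n A = ι (Qs n) (A.1 *ᵥ v) := by
  rw [phi_apply, smul_mul_assoc, mul_smul_comm, ← smul_sub, psi, Finset.sum_mul, Finset.mul_sum,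
    ← Finset.sum_sub_distrib]
  simp only [comm_vec, Matrix.one_mulVec, polar_skew, polar_comm _ (bv _) v, pb, Sum.swap_swap,
    neg_smul, sub_neg_eq_add, Finset.sum_add_distrib, iota_mulVec, iota_swap]
  rw [← two_smul ℂ, smul_smul]
  norm_num

theorem phi_lie (A B : so n) : phi n ⁅A, B⁆ = phi n A * phi n B - phi n B * phi n A := by
  have h : (⁅A, B⁆ : so n).1 = A.1 * B.1 - B.1 * A.1 := rfl
  have e : phi n A * psi B.1 1 - psi B.1 1 * phi n A = psi (A.1 * B.1) 1 + psi B.1 (1 * A.1) := by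
    unfold psi
    rw [Finset.sum_mul, Finset.mul_sum, ← Finset.sum_sub_distrib, ← Finset.sum_add_distrib]
    refine Finset.sum_congr rfl fun l _ => ?_
    rw [← Matrix.mulVec_mulVec, Matrix.one_mul, Matrix.one_mulVec, ← phi_ad A (B.1 *ᵥ bv l),
      ← phi_ad A (bv l.swap)]
    noncomm_ring
  rw [phi_apply B, mul_smul_comm, smul_mul_assoc, ← smul_sub, e, psi_skew, phi_apply, h]
  simp [psi, Matrix.sub_mulVec, sub_mul, Finset.sum_sub_distrib, -Matrix.mulVec_single,
    sub_eq_add_neg, Matrix.add_mulVec, Matrix.neg_mulVec, add_mul, Finset.sum_add_distrib]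

theorem phi_sum (A : so n) : phi n A =
    (1 / 2 : ℂ) • ∑ l, ∑ k, A.1 k l • (ι (Qs n) (bv k) * ι (Qs n) (bv l.swap)) := by
  rw [phi_apply, psi]
  congr 1
  refine Finset.sum_congr rfl fun l _ => ?_
  have : ι (Qs n) (A.1 *ᵥ bv l) = ∑ k, A.1 k l • ι (Qs n) (bv k) := by
    conv_lhs => rw [← expand (A.1 *ᵥ bv l)]
    simp only [map_sum, map_smul, mv]
  rw [this, Matrix.one_mulVec, Finset.sum_mul]
  simp only [smul_mul_assoc]

theorem null_span (hn : 2 ≤ n) {a m : Fin n ⊕ Fin n → ℂ} (hm : Qs n m = 0)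
    (h : polar (Qs n) a m = 0) : ι (Qs n) a * ι (Qs n) m ∈ Submodule.span ℂ (Null n) := by
  by_cases h0 : m = 0
  · simp [h0]
  have hd : 3 ≤ Module.finrank ℂ (Fin n ⊕ Fin n → ℂ) := by
    simp only [Module.finrank_fintype_fun_eq_card, Fintype.card_sum, Fintype.card_fin]
    omega
  obtain ⟨y, hy⟩ : ∃ y, polar (Qs n) m y ≠ 0 := by
    by_contra hc
    push Not at hc
    exact h0 (qs_nondeg n m hc)
  have hy' : polar (Qs n) y m = polar (Qs n) m y := polar_comm _ _ _
  obtain ⟨u, h1, -, h3⟩ := exists_perp (qs_nondeg n) hd m y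
    (fun x => (polar (Qs n) x y - 2 * Qs n y * (polar (Qs n) x m / polar (Qs n) m y)) /
      polar (Qs n) m y)
    (fun x => polar (Qs n) x m / polar (Qs n) m y)
    (fun x => by
      simp only [polar_sub_left, polar_smul_left, polar_self', hm, hy', smul_eq_mul]
      field_simp
      ring)
    (fun x => by
      simp only [polar_sub_left, polar_smul_left, polar_self', smul_eq_mul]
      field_simp
      ring)
  have hu : Qs n u ≠ 0 := by rw [h3]; exact one_ne_zero
  obtain ⟨c, -, hq⟩ := exists_split a hu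
  have e : ι (Qs n) a * ι (Qs n) m =
      ι (Qs n) (a - c • u) * ι (Qs n) m + c • (ι (Qs n) u * ι (Qs n) m) := by
    rw [map_sub, map_smul, sub_mul, smul_mul_assoc, sub_add_cancel]
  rw [e]
  refine Submodule.add_mem _ (Submodule.subset_span ⟨_, m, hm, ?_, hq, rfl⟩)
    (Submodule.smul_mem _ _ (Submodule.subset_span ⟨u, m, hm, h1, hu, rfl⟩))
  rw [polar_sub_left, polar_smul_left, h, h1]
  simp

theorem ef_add (i : Fin n) : e i * f i + f i * e i = (1 : Cl n) := by
  have := ι_mul_ι_add_swap (Q := Qs n) (bv (Sum.inl i)) (bv (Sum.inr i))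
  rw [pb, show bv (Sum.inl i) (Sum.inr i).swap = 1 by simp, map_one] at this
  exact this

theorem diag_span (hn : 2 ≤ n) (i : Fin n) :
    e i * f i - f i * e i ∈ Submodule.span ℂ (Null n) := by
  have : Nontrivial (Fin n) := Fin.nontrivial_iff_two_le.2 hn
  obtain ⟨j, hj⟩ := exists_ne i
  have hj' := hj.symm
  have off : ∀ k l : Fin n ⊕ Fin n, k ≠ l.swap →
      ι (Qs n) (bv k) * ι (Qs n) (bv l) ∈ Submodule.span ℂ (Null n) := fun k l h =>
    null_span hn (qb l) (by rw [pb]; simp [h.symm])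
  have h1 := null_span hn (a := bv (Sum.inr i) - bv (Sum.inl j))
    (m := bv (Sum.inl i) + bv (Sum.inr j))
    (by rw [Q_add, qb, qb, pb]; simp [hj, hj'])
    (by rw [polar_add_right, pb, pb]; simp [hj, hj'])
  have h2 := null_span hn (a := bv (Sum.inr i) - bv (Sum.inr j))
    (m := bv (Sum.inl i) + bv (Sum.inl j))
    (by rw [Q_add, qb, qb, pb]; simp [hj, hj'])
    (by rw [polar_add_right, pb, pb]; simp [hj, hj'])
  have o1 := off (Sum.inr i) (Sum.inr j) (by simp)
  have o2 := off (Sum.inl j) (Sum.inl i) (by simp)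
  have o3 := off (Sum.inr i) (Sum.inl j) (by simp [hj'])
  have o4 := off (Sum.inr j) (Sum.inl i) (by simp [hj])
  rw [map_sub, map_add] at h1 h2
  have key : e i * f i - f i * e i = f i * f j - e j * e i + f i * e j - f j * e i -
      (f i - e j) * (e i + f j) - (f i - f j) * (e i + e j) := by
    have a1 := ef_add i
    have a2 := ef_add j
    have : e i * f i - f i * e i - (f i * f j - e j * e i + f i * e j - f j * e i -
      (f i - e j) * (e i + f j) - (f i - f j) * (e i + e j)) =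
      (e i * f i + f i * e i) - (e j * f j + f j * e j) := by noncomm_ring
    rw [a1, a2, sub_self, sub_eq_zero] at this
    exact this
  rw [key]
  exact sub_mem (sub_mem (sub_mem (add_mem (sub_mem o1 o2) o3) o4) h1) h2

theorem phi_span (hn : 2 ≤ n) (A : so n) : phi n A ∈ Submodule.span ℂ (Null n) := by
  rw [phi_sum]
  refine Submodule.smul_mem _ _ ?_
  have e1 : ∀ l, ∑ k, A.1 k l • (ι (Qs n) (bv k) * ι (Qs n) (bv l.swap)) =
      A.1 l l • (ι (Qs n) (bv l) * ι (Qs n) (bv l.swap)) +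
        ∑ k ∈ Finset.univ.erase l, A.1 k l • (ι (Qs n) (bv k) * ι (Qs n) (bv l.swap)) :=
    fun l => (Finset.add_sum_erase _ (fun k => A.1 k l • (ι (Qs n) (bv k) * ι (Qs n) (bv l.swap)))
      (Finset.mem_univ l)).symm
  simp only [e1]
  rw [Finset.sum_add_distrib]
  refine add_mem ?_ (sum_mem fun l _ => sum_mem fun k hk => Submodule.smul_mem _ _ ?_)
  · rw [Fintype.sum_sum_type, ← Finset.sum_add_distrib]
    refine sum_mem fun i _ => ?_
    rw [skew A (Sum.inr i) (Sum.inr i), neg_smul, ← sub_eq_add_neg]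
    simp only [Sum.swap_inl, Sum.swap_inr]
    rw [← smul_sub]
    exact Submodule.smul_mem _ _ (diag_span hn i)
  · refine null_span hn (qb _) ?_
    rw [pb, Sum.swap_swap]
    simp [(Finset.ne_of_mem_erase hk).symm]

theorem phi_surj {Y : Cl n} (hY : Y ∈ Null n) : ∃ A : so n, phi n A = Y := by
  obtain ⟨a, m, -, h, -, rfl⟩ := hY
  refine ⟨⟨Matrix.of fun k l => a k * m l.swap - m k * a l.swap, (mem_so_iff _).2 fun i j => ?_⟩, ?_⟩
  · simp only [Matrix.of_apply, Sum.swap_inl, Sum.swap_inr]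
    exact ⟨by ring, by ring, by ring⟩
  · rw [phi_sum]
    have e : ∀ u w : Fin n ⊕ Fin n → ℂ, ι (Qs n) u * ι (Qs n) w = ∑ l : Fin n ⊕ Fin n, ∑ k,
        (u k * w l.swap) • (ι (Qs n) (bv k) * ι (Qs n) (bv l.swap)) := fun u w => by
      rw [← iota_swap w, Finset.mul_sum]
      refine Finset.sum_congr rfl fun l _ => ?_
      conv_lhs => rw [← expand u]
      simp only [map_sum, map_smul, Finset.sum_mul, smul_mul_smul_comm]
    simp only [Matrix.of_apply, sub_smul, Finset.sum_sub_distrib]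
    rw [← e, ← e, anti h, sub_neg_eq_add, ← two_smul ℂ, smul_smul]
    norm_num

theorem phi_cartan (a : Fin n → ℂ) :
    phi n (cartan a) = ∑ i, (a i / 2) • (e i * f i - f i * e i) := by
  rw [phi_sum]
  have : ∀ k l, (cartan a).1 k l = if k = l then Sum.elim a (-a) k else 0 := fun k l =>
    Matrix.diagonal_apply _ _ _
  simp only [this, ite_smul, zero_smul, Finset.sum_ite_eq', Finset.mem_univ, if_true]
  rw [Fintype.sum_sum_type, ← Finset.sum_add_distrib, Finset.smul_sum]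
  refine Finset.sum_congr rfl fun i _ => ?_
  simp only [Sum.elim_inl, Sum.elim_inr, Pi.neg_apply, Sum.swap_inl, Sum.swap_inr, neg_smul]
  rw [← sub_eq_add_neg, ← smul_sub, smul_smul, show (1 / 2 : ℂ) * a i = a i / 2 by ring]
  rfl

theorem phi_pos (x : so n) (hx : IsPositive x) : phi n x ∈ Submodule.span ℂ
    {Y : Cl n | ∃ i j : Fin n, i < j ∧ (Y = e i * f j ∨ Y = e i * e j)} := by
  rw [phi_sum]
  refine Submodule.smul_mem _ _ (sum_mem fun l _ => sum_mem fun k _ => ?_)
  rcases k with i | i <;> rcases l with j | j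
  · by_cases h : i < j
    · exact Submodule.smul_mem _ _ (Submodule.subset_span ⟨i, j, h, Or.inl rfl⟩)
    · rw [hx.1 i j (not_lt.1 h), zero_smul]; exact zero_mem _
  · refine Submodule.smul_mem _ _ ?_
    rcases lt_trichotomy i j with h | rfl | h
    · exact Submodule.subset_span ⟨i, j, h, Or.inr rfl⟩
    · rw [Sum.swap_inr, ι_sq_scalar, qb, map_zero]; exact zero_mem _
    · rw [Sum.swap_inr, anti (a := bv (Sum.inl j)) (by rw [pb]; simp)]
      exact neg_mem (Submodule.subset_span ⟨j, i, h, Or.inr rfl⟩)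
  · rw [hx.2 i j, zero_smul]; exact zero_mem _
  · by_cases h : j < i
    · refine Submodule.smul_mem _ _ ?_
      rw [Sum.swap_inr, anti (a := bv (Sum.inl j)) (by rw [pb]; simp [h.ne'])]
      exact neg_mem (Submodule.subset_span ⟨j, i, h, Or.inl rfl⟩)
    · rw [skew x, Sum.swap_inr, Sum.swap_inr, hx.1 j i (not_lt.1 h), neg_zero, zero_smul]
      exact zero_mem _

theorem phi_row : PHI := fun n hn =>
  ⟨phi n, phi_lie, phi_span hn, fun _ hY => phi_surj hY, phi_cartan, phi_pos⟩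

end Vale.Agent.P182G78
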